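import Mathlib

/-!
Littlewood polynomials built from copies of one short block are far from ultraflat.
-/

open Finset Complex
open scoped ComplexConjugate

namespace Vale.Agent.Results.P110.BlockProducts

theorem orth {ζ : ℂ} {M : ℕ} (hζ : IsPrimitiveRoot ζ M) (hM : 0 < M) {i j : ℕ}
    (hi : i < M) (hj : j < M) :
    ∑ s ∈ range M, (ζ ^ i) ^ s * conj ((ζ ^ j) ^ s) = if i = j then (M : ℂ) else 0 := by
  have hn : ‖ζ‖ = 1 := hζ.norm'_eq_one hM.ne'
  have hterm : ∀ s : ℕ, (ζ ^ i) ^ s * conj ((ζ ^ j) ^ s) = (ζ ^ i / ζ ^ j) ^ s := by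
    intro s
    rw [← Complex.inv_eq_conj (by simp [norm_pow, hn]), div_pow, div_eq_mul_inv]
  simp only [hterm]
  have hne : ζ ^ j ≠ 0 := pow_ne_zero _ (hζ.ne_zero hM.ne')
  split_ifs with hij
  · subst hij; simp [hne]
  · have hx : ζ ^ i / ζ ^ j ≠ 1 := fun h => hij (hζ.pow_inj hi hj ((div_eq_one_iff_eq hne).1 h))
    rw [geom_sum_eq hx, div_pow, ← pow_mul, ← pow_mul, mul_comm i, mul_comm j, pow_mul, pow_mul,
      hζ.pow_eq_one]
    simp

theorem parseval {ζ : ℂ} {M : ℕ} (hζ : IsPrimitiveRoot ζ M) (hM : 0 < M) (c : ℕ → ℂ)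
    (S : Finset ℕ) (hS : ∀ i ∈ S, i < M) :
    ∑ s ∈ range M, ‖∑ i ∈ S, c i * (ζ ^ i) ^ s‖ ^ 2 = M * ∑ i ∈ S, ‖c i‖ ^ 2 := by
  apply ofReal_injective
  push_cast
  calc ∑ s ∈ range M, (‖∑ i ∈ S, c i * (ζ ^ i) ^ s‖ : ℂ) ^ 2
      = ∑ s ∈ range M, ∑ i ∈ S, ∑ j ∈ S, c i * conj (c j) * ((ζ ^ i) ^ s * conj ((ζ ^ j) ^ s)) := by
        refine sum_congr rfl fun s _ => ?_
        rw [← Complex.mul_conj', map_sum, sum_mul_sum]
        refine sum_congr rfl fun i _ => sum_congr rfl fun j _ => ?_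
        rw [map_mul]
        ring
    _ = ∑ i ∈ S, ∑ j ∈ S, c i * conj (c j) * (if i = j then (M : ℂ) else 0) := by
        rw [sum_comm]
        refine sum_congr rfl fun i hi => ?_
        rw [sum_comm]
        refine sum_congr rfl fun j hj => ?_
        rw [← mul_sum, orth hζ hM (hS i hi) (hS j hj)]
    _ = _ := by
        rw [mul_sum]
        refine sum_congr rfl fun i hi => ?_
        simp [hi, ← Complex.mul_conj']
        ring

theorem odd_sum (f : ℕ → ℤ) (hf : ∀ i, Odd (f i)) :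
    ∀ n, Odd (∑ i ∈ range n, f i) ↔ Odd n := by
  intro n
  induction n with
  | zero => simp
  | succ n ih =>
    rw [sum_range_succ, Int.odd_add, ih, Nat.odd_add_one]
    simp [Int.not_even_iff_odd.2 (hf n)]

theorem sum_blocks {β : Type} [AddCommMonoid β] (a b : ℕ) (f : ℕ → β) :
    ∑ k ∈ range (a * b), f k = ∑ j ∈ range b, ∑ i ∈ range a, f (a * j + i) := by
  induction b with
  | zero => simp
  | succ b ih => rw [sum_range_succ, Nat.mul_succ, sum_range_add, ih]

theorem result (a b : ℕ) (ha : 2 ≤ a) (hb : 1 ≤ b) (h u v : ℕ → ℤ)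
    (hu : ∀ i, u i = 1 ∨ u i = -1)
    (hblock : ∀ j < b, ∀ i < a, h (a * j + i) = v j * u i) (η : ℝ) (hη : 0 ≤ η)
    (hflat : ∀ z : ℂ, ‖z‖ = 1 →
      (1 - η) * Real.sqrt (a * b : ℕ) ≤ ‖∑ k ∈ range (a * b), (h k : ℂ) * z ^ k‖ ∧
      ‖∑ k ∈ range (a * b), (h k : ℂ) * z ^ k‖ ≤ (1 + η) * Real.sqrt (a * b : ℕ)) :
    1 ≤ 768 * η ^ 2 * a := by
  have haR : (2 : ℝ) ≤ (a : ℝ) := by exact_mod_cast ha
  by_cases hη2 : 1 / 2 < η
  · nlinarith [mul_nonneg (mul_nonneg hη hη) (sub_nonneg.2 haR)]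
  push Not at hη2
  set N : ℕ := a * b with hN
  have hN1 : (1 : ℝ) ≤ (N : ℝ) := by
    have : 1 ≤ a * b := Nat.one_le_iff_ne_zero.2 (Nat.mul_ne_zero (by omega) (by omega))
    exact_mod_cast this
  let R : ℂ → ℂ := fun z => ∑ i ∈ range a, (u i : ℂ) * z ^ i
  let Q : ℂ → ℂ := fun z => ∑ j ∈ range b, (v j : ℂ) * z ^ j
  have hfac : ∀ z : ℂ, ∑ k ∈ range N, (h k : ℂ) * z ^ k = R z * Q (z ^ a) := by
    intro z
    rw [hN, sum_blocks, sum_mul_sum, sum_comm]
    refine sum_congr rfl fun i hi => sum_congr rfl fun j hj => ?_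
    rw [hblock j (mem_range.1 hj) i (mem_range.1 hi), pow_add, pow_mul]
    push_cast
    ring
  have hbd : ∀ z : ℂ, ‖z‖ = 1 → (1 - η) ^ 2 * N ≤ ‖R z‖ ^ 2 * ‖Q (z ^ a)‖ ^ 2 ∧
      ‖R z‖ ^ 2 * ‖Q (z ^ a)‖ ^ 2 ≤ (1 + η) ^ 2 * N := by
    intro z hz
    obtain ⟨h1, h2⟩ := hflat z hz
    rw [hfac, norm_mul] at h1 h2
    have hs : Real.sqrt (N : ℝ) ^ 2 = N := Real.sq_sqrt (Nat.cast_nonneg N)
    rw [← mul_pow]
    refine ⟨?_, ?_⟩
    · calc (1 - η) ^ 2 * N = ((1 - η) * Real.sqrt N) ^ 2 := by rw [mul_pow, hs]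
        _ ≤ _ := pow_le_pow_left₀ (mul_nonneg (by linarith) (Real.sqrt_nonneg _)) h1 2
    · calc _ ≤ ((1 + η) * Real.sqrt N) ^ 2 := pow_le_pow_left₀ (by positivity) h2 2
        _ = _ := by rw [mul_pow, hs]
  obtain ⟨ω, hω⟩ : ∃ ω : ℂ, IsPrimitiveRoot ω a :=
    ⟨_, Complex.isPrimitiveRoot_exp a (by omega)⟩
  have hnorm : ∀ i, ‖(u i : ℂ)‖ = 1 := fun i => by rcases hu i with q | q <;> simp [q]
  have hwin : ∀ z : ℂ, ‖z‖ = 1 → |‖R z‖ ^ 2 - a| ≤ 16 * η * a := by
    intro z hz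
    have hsum : ∑ l ∈ range a, ‖R (z * ω ^ l)‖ ^ 2 = (a : ℝ) * a := by
      have hp := parseval hω (by omega) (fun i => (u i : ℂ) * z ^ i) (range a)
        fun i hi => mem_range.1 hi
      have hnz : ∀ i, ‖(u i : ℂ) * z ^ i‖ = 1 := fun i => by
        rcases hu i with q | q <;> simp [q, norm_pow, hz]
      simp only [hnz, one_pow, sum_const, card_range, nsmul_eq_mul, mul_one] at hp
      rw [← hp]
      refine sum_congr rfl fun l _ => ?_
      congr 2
      refine sum_congr rfl fun i _ => ?_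
      rw [mul_pow, ← pow_mul, ← pow_mul, mul_comm l i, mul_assoc]
    have hzl : ∀ l : ℕ, ‖z * ω ^ l‖ = 1 ∧ (z * ω ^ l) ^ a = z ^ a := fun l => by
      refine ⟨by simp [norm_pow, hz, hω.norm'_eq_one (by omega : a ≠ 0)], ?_⟩
      rw [mul_pow, ← pow_mul, mul_comm l, pow_mul, hω.pow_eq_one, one_pow, mul_one]
    set A := ‖Q (z ^ a)‖ ^ 2 with hA
    set W := ‖R z‖ ^ 2 with hW
    obtain ⟨w1, w2⟩ := hbd z hz
    have hlo : (1 - η) ^ 2 * N ≤ a * A := by
      have : ∑ _l ∈ range a, (1 - η) ^ 2 * (N : ℝ) ≤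
          ∑ l ∈ range a, ‖R (z * ω ^ l)‖ ^ 2 * A := sum_le_sum fun l _ => by
        have := (hbd _ (hzl l).1).1
        rwa [(hzl l).2] at this
      rw [sum_const, card_range, nsmul_eq_mul, ← sum_mul, hsum] at this
      nlinarith
    have hhi : (a : ℝ) * A ≤ (1 + η) ^ 2 * N := by
      have : ∑ l ∈ range a, ‖R (z * ω ^ l)‖ ^ 2 * A ≤
          ∑ _l ∈ range a, (1 + η) ^ 2 * (N : ℝ) := sum_le_sum fun l _ => by
        have := (hbd _ (hzl l).1).2
        rwa [(hzl l).2] at this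
      rw [sum_const, card_range, nsmul_eq_mul, ← sum_mul, hsum] at this
      nlinarith
    have hW0 : 0 ≤ W := sq_nonneg _
    have hA0 : 0 ≤ A := sq_nonneg _
    have u1 : W * (1 - η) ^ 2 ≤ (1 + η) ^ 2 * a := by
      have : W * ((1 - η) ^ 2 * N) ≤ (1 + η) ^ 2 * a * N := by
        calc W * ((1 - η) ^ 2 * N) ≤ W * (a * A) := mul_le_mul_of_nonneg_left hlo hW0
          _ = (W * A) * a := by ring
          _ ≤ (1 + η) ^ 2 * N * a := mul_le_mul_of_nonneg_right w2 (by linarith)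
          _ = _ := by ring
      nlinarith
    have u2 : (1 - η) ^ 2 * a ≤ W * (1 + η) ^ 2 := by
      have : (1 - η) ^ 2 * a * N ≤ W * ((1 + η) ^ 2 * N) := by
        calc (1 - η) ^ 2 * a * N = (1 - η) ^ 2 * N * a := by ring
          _ ≤ (W * A) * a := mul_le_mul_of_nonneg_right w1 (by linarith)
          _ = W * (a * A) := by ring
          _ ≤ _ := mul_le_mul_of_nonneg_left hhi hW0
      nlinarith
    have e1 : (1 : ℝ) / 4 ≤ (1 - η) ^ 2 := by nlinarith
    rw [abs_le]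
    refine ⟨?_, ?_⟩
    · have e2 : (1 + η) ^ 2 ≥ 1 := by nlinarith
      nlinarith [mul_nonneg hη (by linarith : (0 : ℝ) ≤ a)]
    · by_contra hcon
      push Not at hcon
      nlinarith [mul_nonneg hη (by linarith : (0 : ℝ) ≤ a)]
  obtain ⟨ζ, hζ⟩ : ∃ ζ : ℂ, IsPrimitiveRoot ζ (2 * a) :=
    ⟨_, Complex.isPrimitiveRoot_exp (2 * a) (by omega)⟩
  have hζn : ‖ζ‖ = 1 := hζ.norm'_eq_one (by omega)
  let C : ℕ → ℤ := fun t => ∑ k ∈ range (a - t), u (k + t) * u k
  let T : Finset ℕ := (range a).filter fun t => Odd (a - t) ∧ 0 < t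
  have hC : ∀ t ∈ T, (1 : ℤ) ≤ |C t| := by
    intro t ht
    have : Odd (C t) := (odd_sum (fun k => u (k + t) * u k) (fun k => by
      rcases hu (k + t) with q | q <;> rcases hu k with r | r <;> simp [q, r]) _).2
      (mem_filter.1 ht).2.1
    have hne : C t ≠ 0 := fun h0 => by simp [h0] at this
    exact Int.one_le_abs hne
  let W : ℕ → ℝ := fun s => ‖R (ζ ^ s)‖ ^ 2
  have hcoef : ∀ t ∈ T, ∑ s ∈ range (2 * a), ((W s - a : ℝ) : ℂ) * conj ((ζ ^ t) ^ s) =
      (2 * a : ℕ) * (C t : ℂ) := by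
    intro t ht
    obtain ⟨hta, -, ht0⟩ := mem_filter.1 ht
    have hta' := mem_range.1 hta
    have hsq : ∀ s, (W s : ℂ) = ∑ i ∈ range a, ∑ k ∈ range a,
        (u i : ℂ) * (u k : ℂ) * ((ζ ^ i) ^ s * conj ((ζ ^ k) ^ s)) := by
      intro s
      simp only [W, ofReal_pow]
      rw [← Complex.mul_conj', map_sum, sum_mul_sum]
      refine sum_congr rfl fun i _ => sum_congr rfl fun k _ => ?_
      rw [map_mul, map_intCast, ← pow_mul, ← pow_mul, mul_comm s i, mul_comm s k, pow_mul,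
        pow_mul]
      ring
    have hzero : ∑ s ∈ range (2 * a), (a : ℂ) * conj ((ζ ^ t) ^ s) = 0 := by
      have := orth hζ (by omega) (i := 0) (j := t) (by omega) (by omega)
      rw [if_neg (by omega)] at this
      simp only [pow_zero, one_pow, one_mul] at this
      rw [← mul_sum, this, mul_zero]
    calc ∑ s ∈ range (2 * a), ((W s - a : ℝ) : ℂ) * conj ((ζ ^ t) ^ s)
        = ∑ s ∈ range (2 * a), (W s : ℂ) * conj ((ζ ^ t) ^ s) := by
          push_cast
          simp only [sub_mul]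
          rw [sum_sub_distrib, hzero, sub_zero]
      _ = ∑ i ∈ range a, ∑ k ∈ range a, (u i : ℂ) * (u k : ℂ) *
            (if i = k + t then ((2 * a : ℕ) : ℂ) else 0) := by
          simp only [hsq, sum_mul]
          rw [sum_comm]
          refine sum_congr rfl fun i hi => ?_
          rw [sum_comm]
          refine sum_congr rfl fun k hk => ?_
          have hi' := mem_range.1 hi
          have hk' := mem_range.1 hk
          rw [← orth hζ (by omega) (i := i) (j := k + t) (by omega) (by omega), mul_sum]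
          refine sum_congr rfl fun s _ => ?_
          rw [pow_add, mul_pow, map_mul]
          ring
      _ = _ := by
          rw [sum_comm]
          simp only [mul_ite, mul_zero, sum_ite_eq', mem_range]
          rw [← sum_filter, show (range a).filter (fun k => k + t < a) = range (a - t) by
            ext k; simp only [mem_filter, mem_range]; omega]
          simp only [C, Int.cast_sum, Int.cast_mul, mul_sum]
          exact sum_congr rfl fun k _ => by ring
  let sg : ℕ → ℂ := fun t => if 0 ≤ C t then 1 else -1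
  have hsg : ∀ t, ‖sg t‖ = 1 := fun t => by simp only [sg]; split_ifs <;> simp
  let g : ℕ → ℂ := fun s => ∑ t ∈ T, sg t * (ζ ^ t) ^ s
  have hgp : ∑ s ∈ range (2 * a), ‖g s‖ ^ 2 = (2 * a : ℕ) * (T.card : ℝ) := by
    rw [parseval hζ (by omega) sg T fun t ht => by
      have := mem_range.1 (mem_filter.1 ht).1
      omega]
    simp [hsg]
  have hlower : ((2 * a : ℕ) : ℝ) * T.card ≤
      ∑ s ∈ range (2 * a), |W s - a| * ‖g s‖ := by
    have hpair : ∑ s ∈ range (2 * a), ((W s - a : ℝ) : ℂ) * conj (g s) =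
        (((2 * a : ℕ) : ℝ) * ∑ t ∈ T, |(C t : ℝ)| : ℝ) := by
      calc ∑ s ∈ range (2 * a), ((W s - a : ℝ) : ℂ) * conj (g s)
          = ∑ t ∈ T, sg t * ∑ s ∈ range (2 * a), ((W s - a : ℝ) : ℂ) * conj ((ζ ^ t) ^ s) := by
            simp only [g, map_sum, mul_sum]
            rw [sum_comm]
            refine sum_congr rfl fun t _ => sum_congr rfl fun s _ => ?_
            rw [map_mul]
            simp only [sg]
            split_ifs <;> simp
        _ = ∑ t ∈ T, ((((2 * a : ℕ) : ℝ) * |(C t : ℝ)| : ℝ) : ℂ) := by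
            refine sum_congr rfl fun t ht => ?_
            rw [hcoef t ht]
            simp only [sg]
            split_ifs with q
            · rw [abs_of_nonneg (by exact_mod_cast q)]; push_cast; ring
            · rw [abs_of_nonpos (by exact_mod_cast (le_of_not_ge q))]; push_cast; ring
        _ = _ := by push_cast; rw [mul_sum]
    have h1 : ((2 * a : ℕ) : ℝ) * T.card ≤ ((2 * a : ℕ) : ℝ) * ∑ t ∈ T, |(C t : ℝ)| := by
      refine mul_le_mul_of_nonneg_left ?_ (Nat.cast_nonneg _)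
      rw [← mul_one (T.card : ℝ), ← nsmul_eq_mul, ← sum_const]
      exact sum_le_sum fun t ht => by exact_mod_cast hC t ht
    have h2 := norm_sum_le (range (2 * a)) fun s => ((W s - a : ℝ) : ℂ) * conj (g s)
    rw [hpair, Complex.norm_real, Real.norm_eq_abs] at h2
    refine h1.trans ((le_abs_self _).trans (h2.trans (le_of_eq ?_)))
    refine sum_congr rfl fun s _ => ?_
    rw [norm_mul, Complex.norm_real, Real.norm_eq_abs, Complex.norm_conj]
  have hupper : ∑ s ∈ range (2 * a), |W s - a| * ‖g s‖ ≤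
      16 * η * a * ∑ s ∈ range (2 * a), ‖g s‖ := by
    rw [mul_sum]
    exact sum_le_sum fun s _ => mul_le_mul_of_nonneg_right
      (hwin _ (by rw [norm_pow, hζn, one_pow])) (norm_nonneg _)
  have hcs := sq_sum_le_card_mul_sum_sq (s := range (2 * a)) (f := fun s => ‖g s‖)
  rw [hgp, card_range] at hcs
  have hTcard : a ≤ 3 * T.card := by
    have hsub : (range (a / 2)).image (fun k => a - 1 - 2 * k) ⊆ T := by
      intro t ht
      obtain ⟨k, hk, rfl⟩ := mem_image.1 ht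
      have := mem_range.1 hk
      refine mem_filter.2 ⟨mem_range.2 (by omega), ⟨k, by omega⟩, by omega⟩
    have := card_le_card hsub
    rw [card_image_of_injOn, card_range] at this
    · omega
    · intro x hx y hy hxy
      simp only [coe_range, Set.mem_Iio] at hx hy
      simp only at hxy
      omega
  have hT : (a : ℝ) ≤ 3 * T.card := by exact_mod_cast hTcard
  set G := ∑ s ∈ range (2 * a), ‖g s‖
  set τ : ℝ := (T.card : ℝ)
  have hτ : 0 < τ := by linarith
  have hM : ((2 * a : ℕ) : ℝ) = 2 * a := by push_cast; ring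
  rw [hM] at hlower hcs
  have h3 : (2 * a * τ) ^ 2 ≤ (16 * η * a) ^ 2 * (2 * a * (2 * a * τ)) := by
    calc (2 * a * τ) ^ 2 ≤ (16 * η * a * G) ^ 2 :=
          pow_le_pow_left₀ (by positivity) (hlower.trans hupper) 2
      _ = (16 * η * a) ^ 2 * G ^ 2 := by ring
      _ ≤ _ := mul_le_mul_of_nonneg_left hcs (sq_nonneg _)
  have h4 : τ ≤ (16 * η * a) ^ 2 := by
    have : 0 < 4 * (a : ℝ) ^ 2 * τ := by positivity
    nlinarith
  have h5 : (a : ℝ) * 1 ≤ (a : ℝ) * (768 * η ^ 2 * a) := by nlinarith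
  exact le_of_mul_le_mul_left h5 (by linarith)

end Vale.Agent.Results.P110.BlockProducts
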