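import Vale.Agent.P110.Dense.Main

/-!
The group delay of an ultraflat Littlewood sequence is locally spread over the whole of `[0, 1]`.
-/

namespace Vale.Agent.Results.P110.DelayDense

open Vale.Agent.P110.Window Vale.Agent.P110.Dense Finset Complex

/-- For every `δ` and `ω` there are `η` and `γ` such that the group delay
`q(z) = Re (z P'(z) / P(z)) / N` of an `η`-flat Littlewood polynomial of large length `N` lies in any
given subinterval of `[0, 1]` of length `δ` at no fewer than `γ N` of the `N`-th roots of unity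
within distance `ω` of any given point of the circle. -/
theorem result : ∀ δ ω : ℝ, 0 < δ → 0 < ω → ∃ η : ℝ, 0 < η ∧ ∃ γ : ℝ, 0 < γ ∧ ∃ N₀ : ℕ,
    ∀ (h : ℕ → ℤ) (N : ℕ), N₀ ≤ N → (∀ k < N, h k = 1 ∨ h k = -1) →
      (∀ z : ℂ, ‖z‖ = 1 →
        (1 - η) * Real.sqrt N ≤ ‖∑ k ∈ range N, (h k : ℂ) * z ^ k‖ ∧
          ‖∑ k ∈ range N, (h k : ℂ) * z ^ k‖ ≤ (1 + η) * Real.sqrt N) →
      ∀ θ₀ a : ℝ, 0 ≤ a → a + δ ≤ 1 → γ * N ≤ (({s : ℕ | s < N ∧
        ‖exp (2 * Real.pi * I / N) ^ s - exp (θ₀ * I)‖ ≤ ω ∧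
        ((∑ k ∈ range N, (k : ℂ) * (h k : ℂ) * (exp (2 * Real.pi * I / N) ^ s) ^ k) /
            ∑ k ∈ range N, (h k : ℂ) * (exp (2 * Real.pi * I / N) ^ s) ^ k).re / N ∈
          Set.Icc a (a + δ)}).ncard : ℝ) := by
  intro δ ω hδ hω
  obtain ⟨η, hη, γ, hγ, N₀, H⟩ := delay_dense hδ hω
  refine ⟨η, hη, γ, hγ, N₀, fun h N hN hh hfl θ₀ a ha ha' => ?_⟩
  have := H (fun k => (h k : ℝ)) N hN (fun k hk => by rcases hh k hk with e | e <;> simp [e])
    (fun z hz => by simpa [pol] using hfl z hz) θ₀ a ha ha'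
  simpa [delay_sums, pol] using this

end Vale.Agent.Results.P110.DelayDense
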