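import Vale.Agent.P110.Golay.AllLengths

/-!
P110: for every large length some Littlewood polynomial has maximum at most `(√2 + ε) √N`.
-/

open Finset Filter Vale.Agent.P110.Golay

theorem Vale.Agent.Results.P110.SqrtTwoAllLengths.result :
    ∀ ε : ℝ, 0 < ε → ∀ᶠ N : ℕ in atTop, ∃ h : ℕ → ℤ, (∀ k, h k = 1 ∨ h k = -1) ∧
      ∀ z : ℂ, ‖z‖ = 1 → ‖∑ k ∈ range N, (h k : ℂ) * z ^ k‖ ≤ (√2 + ε) * √N :=
  fun _ hε => hasBound_sqrt_two hε
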