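import Vale.Agent.P110.Window.Twin

/-!
Littlewood polynomials with two linear windows equal up to sign or reversal are far from ultraflat.
-/

namespace Vale.Agent.Results.P110.TwinWindows

open Vale.Agent.P110.Window Finset

/-- For every `δ > 0` there are `η > 0` and `N₀` such that no Littlewood polynomial of length
`N ≥ N₀` with two disjoint windows of length at least `δ N`, equal up to sign or up to sign and
reversal, is `η`-flat. -/
theorem result : ∀ δ : ℝ, 0 < δ → ∃ η : ℝ, 0 < η ∧ ∃ N₀ : ℕ,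
    ∀ (h : ℕ → ℤ) (N a b l : ℕ), N₀ ≤ N → (∀ k < N, h k = 1 ∨ h k = -1) →
      δ * N ≤ l → a + l ≤ b → b + l ≤ N →
      (∃ s : ℤ, (s = 1 ∨ s = -1) ∧
        ((∀ i < l, h (b + i) = s * h (a + i)) ∨
          (∀ i < l, h (b + i) = s * h (a + (l - 1 - i))))) →
      ¬ ∀ z : ℂ, ‖z‖ = 1 →
        (1 - η) * Real.sqrt N ≤ ‖∑ k ∈ range N, (h k : ℂ) * z ^ k‖ ∧
          ‖∑ k ∈ range N, (h k : ℂ) * z ^ k‖ ≤ (1 + η) * Real.sqrt N := by
  intro δ hδ
  obtain ⟨η, hη, N₀, hN₀⟩ := no_twin hδ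
  refine ⟨η, hη, N₀, fun h N a b l hN hh hl hab hbN ⟨s, hs, hw⟩ hflat => ?_⟩
  refine hN₀ (fun k => (h k : ℝ)) N a b l hN (fun k hk => ?_) hl hab hbN ⟨(s : ℝ), ?_, ?_⟩
    fun z hz => ?_
  · rcases hh k hk with e | e <;> simp [e]
  · rcases hs with e | e <;> simp [e]
  · exact hw.imp (fun H i hi => by simp only; exact_mod_cast H i hi)
      (fun H i hi => by simp only; exact_mod_cast H i hi)
  · simpa [pol] using hflat z hz

end Vale.Agent.Results.P110.TwinWindows
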